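import Vale.Agent.P198V50.Defs

/-!
# P198V: paths in the metric Cayley graph
-/

namespace Vale.Agent.P198V

open Set Filter Topology Vale.Agent.P198.H
open scoped NNReal ENNReal

noncomputable section

section join

variable {X : Type} [MetricSpace X] {x y z : X} {l m : ℝ}

theorem lip_of {c : ℝ → X} (h : ∀ s t, s ≤ t → dist (c s) (c t) ≤ t - s) : LipschitzWith 1 c :=
  LipschitzWith.mk_one fun s t => by
    rcases le_total s t with e | e
    · rw [Real.dist_eq, abs_sub_comm]; exact (h s t e).trans (le_abs_self _)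
    · rw [dist_comm, Real.dist_eq]; exact (h t s e).trans (le_abs_self _)

theorem lip_le {c : ℝ → X} (h : LipschitzWith 1 c) (s t : ℝ) : dist (c s) (c t) ≤ |s - t| := by
  simpa [Real.dist_eq] using h.dist_le_mul s t

theorem seg_of {c : ℝ → X} (h : LipschitzWith 1 c) (hl : 0 ≤ l) (e : l ≤ dist (c 0) (c l)) :
    IsSeg c l (c 0) (c l) := by
  have key : ∀ s ∈ Icc 0 l, ∀ t ∈ Icc 0 l, s ≤ t → t - s ≤ dist (c s) (c t) := fun s hs t ht _ => by
    have h1 := lip_le h 0 s
    have h2 := lip_le h t l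
    rw [zero_sub, abs_neg, abs_of_nonneg hs.1] at h1
    rw [abs_sub_comm, abs_of_nonneg (sub_nonneg.2 ht.2)] at h2
    have := dist_triangle4 (c 0) (c s) (c t) (c l)
    linarith
  refine ⟨hl, rfl, rfl, fun s hs t ht => le_antisymm (lip_le h s t) ?_⟩
  rcases le_total s t with e | e
  · rw [abs_sub_comm, abs_of_nonneg (sub_nonneg.2 e)]; exact key s hs t ht e
  · rw [abs_of_nonneg (sub_nonneg.2 e), dist_comm]; exact key t ht s hs e

/-- a path of length at most `l` -/
def Join (x y : X) (l : ℝ) : Prop :=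
  0 ≤ l ∧ ∃ c : ℝ → X, LipschitzWith 1 c ∧ c 0 = x ∧ c l = y

theorem Join.refl (hl : 0 ≤ l) : Join x x l :=
  ⟨hl, fun _ => x, lip_of fun s t e => by rw [dist_self]; linarith, rfl, rfl⟩

theorem Join.symm (h : Join x y l) : Join y x l := by
  obtain ⟨hl, c, h1, h2, h3⟩ := h
  refine ⟨hl, fun t => c (l - t), lip_of fun s t e => (lip_le h1 _ _).trans ?_, by simpa, by simpa⟩
  rw [show l - s - (l - t) = t - s by ring, abs_of_nonneg (sub_nonneg.2 e)]

theorem Join.trans (h : Join x y l) (h' : Join y z m) : Join x z (l + m) := by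
  obtain ⟨hl, c, h1, h2, h3⟩ := h
  obtain ⟨hm, c', k1, k2, k3⟩ := h'
  refine ⟨add_nonneg hl hm, fun t => if t ≤ l then c t else c' (t - l), lip_of fun s t e => ?_,
    by simp [hl, h2], ?_⟩
  · split_ifs with a b b
    · exact (lip_le h1 _ _).trans (by rw [abs_sub_comm, abs_of_nonneg (sub_nonneg.2 e)])
    · have a1 := lip_le h1 s l
      have a2 := lip_le k1 0 (t - l)
      rw [abs_sub_comm, abs_of_nonneg (sub_nonneg.2 a), h3] at a1
      rw [zero_sub, abs_neg, abs_of_nonneg (by linarith), k2] at a2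
      linarith [dist_triangle (c s) y (c' (t - l))]
    · exact absurd (e.trans b) a
    · refine (lip_le k1 _ _).trans ?_
      rw [show s - l - (t - l) = -(t - s) by ring, abs_neg, abs_of_nonneg (sub_nonneg.2 e)]
  · show (if l + m ≤ l then c (l + m) else c' (l + m - l)) = z
    split_ifs with a
    · obtain rfl : m = 0 := by linarith
      rw [add_zero, h3, ← k2, k3]
    · rw [add_sub_cancel_left, k3]

theorem Join.seg (h : Join x y (dist x y)) : ∃ c, IsSeg c (dist x y) x y := by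
  obtain ⟨hl, c, h1, h2, h3⟩ := h
  have := seg_of h1 hl (by rw [h2, h3])
  rw [h2, h3] at this
  exact ⟨c, this⟩

end join

variable {G : Type} [Group G] {S : Finset G} {hS : Subgroup.closure (S : Set G) = ⊤}

/-- the class of a point -/
abbrev pt (p : Pt hS) : Cay hS := SeparationQuotient.mk p

theorem dist_pt_le {p q : Pt hS} {r : ℝ} (h : r ∈ lens p q) : dist (pt p) (pt q) ≤ r :=
  (SeparationQuotient.dist_mk p q).trans_le (inf_le h)

theorem dist_vtx (g h : G) : dist (vtx hS g) (vtx hS h) = wdist S g h := by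
  refine le_antisymm (dist_pt_le (.inr ⟨false, false, by simp [Pt.fin, Pt.cost]⟩)) ?_
  refine (le_csInf (lens_ne (hS := hS) (.inl g) (.inl h)) fun r hr => ?_).trans_eq
    (SeparationQuotient.dist_mk (α := Pt hS) (.inl g) (.inl h)).symm
  rcases hr with ⟨g, s, t, u, h1, -, -⟩ | ⟨a, b, rfl⟩
  · cases h1
  · simp [Pt.fin, Pt.cost]

theorem dist_fin (p : Pt hS) (a : Bool) : dist (pt p) (vtx hS (p.fin a)) ≤ p.cost a :=
  dist_pt_le (.inr ⟨a, false, by simp [Pt.fin, Pt.cost, wdist_self]⟩)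

theorem near (x : Cay hS) : ∃ g, dist x (vtx hS g) ≤ 1 := by
  obtain ⟨p, rfl⟩ := SeparationQuotient.surjective_mk x
  refine ⟨_, (dist_fin p false).trans ?_⟩
  rcases p with g | p
  exacts [zero_le_one, p.2.2.2.2]

theorem join_edge (g : G) (s : S) (t u : unitInterval) :
    Join (pt (hS := hS) (.inr (g, s, t))) (pt (.inr (g, s, u))) |(t : ℝ) - u| := by
  wlog e : (t : ℝ) ≤ u generalizing t u
  · rw [abs_sub_comm]; exact (this u t (le_of_not_ge e)).symm
  refine ⟨abs_nonneg _, fun v => pt (.inr (g, s, projIcc 0 1 zero_le_one (t + v))),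
    lip_of fun v w h => (dist_pt_le (.inl ⟨g, s, _, _, rfl, rfl, rfl⟩)).trans ?_, ?_, ?_⟩
  · refine (abs_projIcc_sub_projIcc _).trans ?_
    rw [show t + v - (t + w) = -(w - v) by ring, abs_neg, abs_of_nonneg (sub_nonneg.2 h)]
  · simp
  · show pt (.inr (g, s, projIcc 0 1 zero_le_one (t + |(t : ℝ) - u|))) = _
    rw [abs_sub_comm, abs_of_nonneg (sub_nonneg.2 e), add_sub_cancel]
    simp

theorem join_fin (p : Pt hS) (a : Bool) : Join (pt p) (vtx hS (p.fin a)) (p.cost a) := by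
  rcases p with g | ⟨g, s, t⟩
  · exact .refl le_rfl
  cases a
  · have := join_edge (hS := hS) g s t 0
    rwa [dist_le_zero.1 (dist_fin (.inr (g, s, 0) : Pt hS) false), Set.Icc.coe_zero, sub_zero,
      abs_of_nonneg t.2.1] at this
  · have := join_edge (hS := hS) g s t 1
    rwa [dist_le_zero.1 ((dist_fin (.inr (g, s, 1) : Pt hS) true).trans_eq (sub_self _)),
      Set.Icc.coe_one, abs_sub_comm, abs_of_nonneg (sub_nonneg.2 t.2.2)] at this

theorem join_step (g : G) (s : S) : Join (vtx hS g) (vtx hS (g * s)) 1 := by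
  have := (join_fin (hS := hS) (.inr (g, s, 0)) false).symm.trans (join_fin _ true)
  simpa [Pt.fin, Pt.cost] using this

theorem join_one {g h : G} (e : wdist S g h ≤ 1) : Join (vtx hS g) (vtx hS h) 1 := by
  obtain ⟨l, h1, h2, h3⟩ := exists_word hS (g⁻¹ * h)
  have h4 : l.length ≤ 1 := h1.trans_le e
  match l, h2, h3, h4 with
  | [], _, h3, _ =>
    obtain rfl : g = h := inv_mul_eq_one.1 h3.symm
    exact .refl zero_le_one
  | [x], h2, h3, _ =>
    obtain rfl : h = g * x := by rw [← List.prod_singleton (x := x), h3]; group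
    rcases h2 x (by simp) with a | a
    · exact join_step g ⟨x, a⟩
    · have := (join_step (hS := hS) (g * x) ⟨x⁻¹, a⟩).symm
      simpa using this
  | _ :: _ :: _, _, _, h4 => simp at h4

theorem join_vtx (g h : G) : Join (vtx hS g) (vtx hS h) (wdist S g h) := by
  obtain ⟨a, ha⟩ := exists_geod hS g h
  have : ∀ k ≤ wdist S g h, Join (vtx hS g) (vtx hS (a k)) k := fun k => by
    induction k with
    | zero => intro _; rw [ha.start]; exact .refl (by simp)
    | succ k ih =>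
      intro hk
      have := (ih (by omega)).trans (join_one (hS := hS)
        ((ha.geod k (k + 1) (by omega) hk).trans_le (by omega)))
      exact_mod_cast this
  have := this _ le_rfl
  rwa [ha.stop] at this

theorem geodesic (x y : Cay hS) : ∃ c, IsSeg c (dist x y) x y := by
  obtain ⟨p, rfl⟩ := SeparationQuotient.surjective_mk x
  obtain ⟨q, rfl⟩ := SeparationQuotient.surjective_mk y
  have f : (lens p q).Finite := by
    refine .union (Set.Subsingleton.finite ?_) ((Set.finite_range fun ab : Bool × Bool =>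
      p.cost ab.1 + wdist S (p.fin ab.1) (q.fin ab.2) + q.cost ab.2).subset ?_)
    · rintro _ ⟨g, s, t, u, rfl, rfl, rfl⟩ _ ⟨g', s', t', u', h1, h2, rfl⟩
      cases h1; cases h2; rfl
    · rintro _ ⟨a, b, rfl⟩
      exact ⟨(a, b), rfl⟩
  have m : dist (pt p) (pt q) ∈ lens p q := by
    rw [SeparationQuotient.dist_mk]; exact (lens_ne p q).csInf_mem f
  refine Join.seg ?_
  rcases m with ⟨g, s, t, u, rfl, rfl, e⟩ | ⟨a, b, e⟩
  · rw [e]; exact join_edge g s t u
  · rw [e]; exact ((join_fin p a).trans (join_vtx _ _)).trans (join_fin q b).symm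

/-! ## the path through a sequence of vertices -/

open Classical in
/-- a path from `g` to `h` -/
def stp (hS : Subgroup.closure (S : Set G) = ⊤) (g h : G) : ℝ → Cay hS :=
  if e : wdist S g h ≤ 1 then (join_one e).2.choose else fun _ => vtx hS g

theorem stp_spec {g h : G} (e : wdist S g h ≤ 1) :
    LipschitzWith 1 (stp hS g h) ∧ stp hS g h 0 = vtx hS g ∧ stp hS g h 1 = vtx hS h := by
  rw [stp, dif_pos e]; exact (join_one e).2.choose_spec

/-- the path through the vertices `a 0, a 1, ...` -/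
def ext (hS : Subgroup.closure (S : Set G) = ⊤) (a : ℕ → G) (t : ℝ) : Cay hS :=
  stp hS (a ⌊t⌋₊) (a (⌊t⌋₊ + 1)) (t - ⌊t⌋₊)

variable {a : ℕ → G} (ha : ∀ i, wdist S (a i) (a (i + 1)) ≤ 1)
include ha

theorem ext_nat (n : ℕ) : ext hS a n = vtx hS (a n) := by
  rw [ext, Nat.floor_natCast, sub_self, (stp_spec (ha n)).2.1]

theorem ext_lo (t : ℝ) : dist (vtx hS (a ⌊t⌋₊)) (ext hS a t) ≤ |t - ⌊t⌋₊| := by
  have := lip_le (stp_spec (hS := hS) (ha ⌊t⌋₊)).1 0 (t - ⌊t⌋₊)
  rwa [(stp_spec (ha _)).2.1, zero_sub, abs_neg] at this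

theorem ext_near {t : ℝ} (ht : 0 ≤ t) : dist (vtx hS (a ⌊t⌋₊)) (ext hS a t) ≤ 1 :=
  (ext_lo ha t).trans (by
    rw [abs_of_nonneg (sub_nonneg.2 (Nat.floor_le ht))]; linarith [Nat.lt_floor_add_one t])

theorem steps (hS : Subgroup.closure (S : Set G) = ⊤) (i k : ℕ) : wdist S (a i) (a (i + k)) ≤ k := by
  induction k with
  | zero => simp [wdist_self]
  | succ k ih => exact (wdist_triangle hS _ (a (i + k)) _).trans (Nat.add_le_add ih (ha _))

theorem ext_lip : LipschitzWith 1 (ext hS a) := lip_of fun s t e => by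
  rcases (Nat.floor_mono e).eq_or_lt with h | h
  · unfold ext
    rw [h]
    refine (lip_le (stp_spec (ha _)).1 _ _).trans ?_
    rw [show s - ⌊t⌋₊ - (t - ⌊t⌋₊) = -(t - s) by ring, abs_neg, abs_of_nonneg (sub_nonneg.2 e)]
  · obtain ⟨k, hk⟩ := Nat.exists_eq_add_of_le (Nat.succ_le_of_lt h)
    have h0 : 0 ≤ t := zero_le_one.trans (Nat.floor_pos.1 (by omega))
    have h1 := lip_le (stp_spec (hS := hS) (ha ⌊s⌋₊)).1 (s - ⌊s⌋₊) 1
    rw [(stp_spec (ha _)).2.2, abs_sub_comm,
      abs_of_nonneg (by linarith [Nat.lt_floor_add_one s])] at h1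
    have h2 : dist (vtx hS (a (⌊s⌋₊ + 1))) (vtx hS (a ⌊t⌋₊)) ≤ k := by
      rw [dist_vtx, hk]; exact_mod_cast steps ha hS _ k
    have h3 := ext_lo (hS := hS) ha t
    rw [abs_of_nonneg (sub_nonneg.2 (Nat.floor_le h0))] at h3
    have h4 : (⌊t⌋₊ : ℝ) = ⌊s⌋₊ + 1 + k := by rw [hk]; push_cast; ring
    have := dist_triangle4 (ext hS a s) (vtx hS (a (⌊s⌋₊ + 1))) (vtx hS (a ⌊t⌋₊)) (ext hS a t)
    unfold ext at this h3 ⊢
    linarith

omit ha in
theorem seg_geod {x y : G} {n : ℕ} (h : IsGeod S x y a n) :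
    ∃ c, IsSeg c n (vtx hS x) (vtx hS y) ∧ (∀ i ≤ n, c i = vtx hS (a i)) ∧
      ∀ t ∈ Icc (0 : ℝ) n, ∃ j ≤ n, dist (vtx hS (a j)) (c t) ≤ 1 := by
  have hb : ∀ i, wdist S (a (min i n)) (a (min (i + 1) n)) ≤ 1 := fun i =>
    (h.geod _ _ (by omega) (by omega)).trans_le (by omega)
  have e : ∀ i ≤ n, ext hS (fun i => a (min i n)) (i : ℕ) = vtx hS (a i) := fun i hi => by
    rw [ext_nat hb, min_eq_left hi]
  have e0 := e 0 (Nat.zero_le n)
  rw [Nat.cast_zero] at e0
  have := seg_of (ext_lip (hS := hS) hb) n.cast_nonneg (by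
    rw [e0, e n le_rfl, dist_vtx, h.geod 0 n (Nat.zero_le n) le_rfl]; simp)
  rw [e0, e n le_rfl, h.start, h.stop] at this
  exact ⟨_, this, e, fun t ht => ⟨_, min_le_right _ _, ext_near hb ht.1⟩⟩

omit ha in
theorem thin_of_slim {δ : ℝ} (h : Slim (Cay hS) δ) : Thin S ⌈δ + 1⌉₊ := by
  intro x y z a b c l m n h1 h2 h3 i hi
  obtain ⟨a', a1, a2, -⟩ := seg_geod (hS := hS) h1
  obtain ⟨b', b1, -, b3⟩ := seg_geod (hS := hS) h2
  obtain ⟨c', c1, -, c3⟩ := seg_geod (hS := hS) h3
  obtain ⟨w, hw, e⟩ := h _ _ _ _ _ _ _ _ _ a1 b1 c1 i ⟨i.cast_nonneg, by exact_mod_cast hi⟩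
  rw [a2 i hi] at e
  have key : ∀ g, dist (vtx hS g) w ≤ 1 → wdist S (a i) g ≤ ⌈δ + 1⌉₊ := fun g hg => by
    have := dist_triangle_right (vtx hS (a i)) (vtx hS g) w
    rw [dist_vtx] at this
    exact_mod_cast (show (wdist S (a i) g : ℝ) ≤ δ + 1 by linarith).trans (Nat.le_ceil _)
  rcases hw with ⟨t, ht, rfl⟩ | ⟨t, ht, rfl⟩
  · exact .inl ((b3 t ht).imp fun j hj => ⟨hj.1, key _ hj.2⟩)
  · exact .inr ((c3 t ht).imp fun j hj => ⟨hj.1, key _ hj.2⟩)

end

end Vale.Agent.P198V
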