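import Vale.Agent.P198.H.Word

/-!
# P198: the metric Cayley graph, geodesics, the boundary and visual metrics
-/

namespace Vale.Agent.P198V

open Set Filter Topology Vale.Agent.P198.H
open scoped NNReal ENNReal

noncomputable section

section space

variable {X : Type} [MetricSpace X]

/-- `c` restricted to `[0, l]` is a geodesic from `x` to `y` -/
structure IsSeg (c : ℝ → X) (l : ℝ) (x y : X) : Prop where
  nonneg : 0 ≤ l
  start : c 0 = x
  stop : c l = y
  iso : ∀ s ∈ Icc 0 l, ∀ t ∈ Icc 0 l, dist (c s) (c t) = |s - t|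

variable (X) in
/-- each side of each geodesic triangle lies in the `δ`-neighbourhood of the union of the other
two sides -/
def Slim (δ : ℝ) : Prop :=
  ∀ (x y z : X) (a b c : ℝ → X) (l m n : ℝ), IsSeg a l x y → IsSeg b m y z → IsSeg c n z x →
    ∀ s ∈ Icc 0 l, ∃ w ∈ b '' Icc 0 m ∪ c '' Icc 0 n, dist (a s) w ≤ δ

/-- geodesic rays from `o`, with the compact-open topology -/
abbrev GRay (o : X) : Type := {c : C(ℝ≥0, X) // c 0 = o ∧ Isometry c}

/-- the boundary: geodesic rays from `o` modulo finite Hausdorff distance -/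
def Bd (o : X) : Type :=
  Quot fun c c' : GRay o => Metric.hausdorffEDist (range c.1) (range c'.1) ≠ ⊤

/-- the quotient topology -/
instance (o : X) : TopologicalSpace (Bd o) := inferInstanceAs (TopologicalSpace (Quot _))

/-- the Gromov product of `x` and `y` at `o` -/
def gro (o x y : X) : ℝ := (dist o x + dist o y - dist x y) / 2

/-- the Gromov product of two points of the boundary -/
def groB {o : X} (ξ η : Bd o) : ℝ≥0∞ :=
  ⨆ (c : GRay o) (c' : GRay o) (_ : Quot.mk _ c = ξ) (_ : Quot.mk _ c' = η),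
    liminf (fun t => ENNReal.ofReal (gro o (c.1 t) (c'.1 t))) atTop

/-- `d` is a visual metric on the boundary -/
structure IsVisual {o : X} (d : Bd o → Bd o → ℝ) : Prop where
  self : ∀ ξ, d ξ ξ = 0
  comm : ∀ ξ η, d ξ η = d η ξ
  triangle : ∀ ξ η ζ, d ξ ζ ≤ d ξ η + d η ζ
  cmp : ∃ a C : ℝ, 1 < a ∧ 1 ≤ C ∧ ∀ ξ η, ξ ≠ η →
    a ^ (-(groB ξ η).toReal) / C ≤ d ξ η ∧ d ξ η ≤ C * a ^ (-(groB ξ η).toReal)

end space

variable {G : Type} [Group G] {S : Finset G}

/-- the vertices `g`, and the points `(g, s, t)` of the edges from `g` to `g s` -/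
def Pt (_ : Subgroup.closure (S : Set G) = ⊤) : Type := G ⊕ G × S × unitInterval

variable {hS : Subgroup.closure (S : Set G) = ⊤}

/-- the two ends of the edge of a point -/
def Pt.fin : Pt hS → Bool → G
  | .inl g, _ => g
  | .inr p, false => p.1
  | .inr p, true => p.1 * p.2.1

/-- the distance, along the edge, from a point to the ends of its edge -/
def Pt.cost : Pt hS → Bool → ℝ
  | .inl _, _ => 0
  | .inr p, false => p.2.2
  | .inr p, true => 1 - p.2.2

/-- the lengths of the shortest paths from `p` to `q` inside one edge, or through given ends -/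
def lens (p q : Pt hS) : Set ℝ :=
  {r | ∃ g s t u, p = .inr (g, s, t) ∧ q = .inr (g, s, u) ∧ r = |(t : ℝ) - u|} ∪
    {r | ∃ a b, r = p.cost a + wdist S (p.fin a) (q.fin b) + q.cost b}

theorem Pt.cost_nonneg (p : Pt hS) (a : Bool) : 0 ≤ p.cost a := by
  rcases p with g | p
  · exact le_rfl
  · cases a
    exacts [p.2.2.2.1, sub_nonneg.2 p.2.2.2.2]

theorem lens_nonneg {p q : Pt hS} {r : ℝ} (h : r ∈ lens p q) : 0 ≤ r := by
  rcases h with ⟨g, s, t, u, -, -, rfl⟩ | ⟨a, b, rfl⟩
  · exact abs_nonneg _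
  · have := p.cost_nonneg a
    have := q.cost_nonneg b
    positivity

theorem lens_ne (p q : Pt hS) : (lens p q).Nonempty := ⟨_, .inr ⟨false, false, rfl⟩⟩

theorem inf_le {p q : Pt hS} {r : ℝ} (h : r ∈ lens p q) : sInf (lens p q) ≤ r :=
  csInf_le ⟨0, fun _ => lens_nonneg⟩ h

theorem lens_symm {p q : Pt hS} {r : ℝ} (h : r ∈ lens p q) : r ∈ lens q p := by
  rcases h with ⟨g, s, t, u, h1, h2, rfl⟩ | ⟨a, b, rfl⟩
  · exact .inl ⟨g, s, u, t, h2, h1, abs_sub_comm _ _⟩
  · exact .inr ⟨b, a, by rw [wdist_comm]; ring⟩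

theorem wdist_edge (g : G) (s : S) : wdist S g (g * s) ≤ 1 := by
  have := wlen_le (S := S) (l := [(s : G)]) (by simp)
  simpa [wdist] using this

theorem Pt.fin_le (p : Pt hS) (a b : Bool) :
    (wdist S (p.fin a) (p.fin b) : ℝ) ≤ p.cost a + p.cost b := by
  have h1 := p.cost_nonneg a
  have h2 := p.cost_nonneg b
  rcases p with g | p
  · simp [Pt.fin, Pt.cost, wdist_self]
  · have e : (wdist S p.1 (p.1 * p.2.1) : ℝ) ≤ 1 := by exact_mod_cast wdist_edge p.1 p.2.1
    cases a <;> cases b <;> simp only [Pt.fin, Pt.cost] at h1 h2 ⊢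
    · rw [wdist_self]; push_cast; linarith
    · linarith
    · rw [wdist_comm]; linarith
    · rw [wdist_self]; push_cast; linarith

theorem inf_edge (g : G) (s : S) (t u : unitInterval) (q : Pt hS) {r : ℝ}
    (h : r ∈ lens (.inr (g, s, u) : Pt hS) q) :
    sInf (lens (.inr (g, s, t) : Pt hS) q) ≤ |(t : ℝ) - u| + r := by
  rcases h with ⟨g', s', u', v, h1, rfl, rfl⟩ | ⟨a, b, rfl⟩
  · cases h1
    exact (inf_le (.inl ⟨g, s, t, v, rfl, rfl, rfl⟩)).trans (abs_sub_le _ _ _)
  · refine (inf_le (.inr ⟨a, b, rfl⟩)).trans ?_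
    have := le_abs_self ((t : ℝ) - u)
    have := neg_abs_le ((t : ℝ) - u)
    cases a <;> simp only [Pt.fin, Pt.cost] <;> linarith

theorem inf_tri {p q z : Pt hS} {r r' : ℝ} (h : r ∈ lens p q) (h' : r' ∈ lens q z) :
    sInf (lens p z) ≤ r + r' := by
  rcases h with ⟨g, s, t, u, rfl, rfl, rfl⟩ | ⟨a, b, e⟩
  · exact inf_edge g s t u z h'
  rcases h' with ⟨g, s, t, u, rfl, rfl, rfl⟩ | ⟨a', b', rfl⟩
  · have := inf_edge g s u t p (lens_symm (.inr ⟨a, b, e⟩))
    rw [show lens (.inr (g, s, u) : Pt hS) p = lens p (.inr (g, s, u)) from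
      Set.ext fun _ => ⟨lens_symm, lens_symm⟩, abs_sub_comm] at this
    linarith
  · refine (inf_le (.inr ⟨a, b', rfl⟩)).trans ?_
    have h1 : (wdist S (p.fin a) (z.fin b') : ℝ) ≤ wdist S (p.fin a) (q.fin b) +
        wdist S (q.fin b) (q.fin a') + wdist S (q.fin a') (z.fin b') := by
      exact_mod_cast (wdist_triangle hS _ (q.fin a') _).trans
        (Nat.add_le_add_right (wdist_triangle hS _ (q.fin b) _) _)
    have := q.fin_le b a'
    linarith

/-- the length of the shortest path -/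
instance : PseudoMetricSpace (Pt hS) where
  dist p q := sInf (lens p q)
  dist_self p := le_antisymm (inf_le (by
    rcases p with g | ⟨g, s, t⟩
    · exact .inr ⟨false, false, by simp [Pt.fin, Pt.cost, wdist_self]⟩
    · exact .inl ⟨g, s, t, t, rfl, rfl, by simp⟩)) (le_csInf (lens_ne p p) fun _ => lens_nonneg)
  dist_comm _ _ := congrArg sInf (Set.ext fun _ => ⟨lens_symm, lens_symm⟩)
  dist_triangle p q z := by
    refine sub_le_iff_le_add.1 (le_csInf (lens_ne p q) fun r h => sub_le_comm.1 ?_)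
    exact le_csInf (lens_ne q z) fun r' h' => sub_le_iff_le_add'.2 (inf_tri h h')

variable (hS) in
/-- the Cayley graph as a metric space: points at distance zero (the ends of edges and the
vertices) are glued -/
abbrev Cay : Type := SeparationQuotient (Pt hS)

variable (hS) in
/-- the vertices of the Cayley graph -/
def vtx (g : G) : Cay hS := SeparationQuotient.mk (.inl g)

end

end Vale.Agent.P198V
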