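import Vale.Agent.P198V50.Ext
import Vale.Agent.P198.H.Rays

/-!
# P198: end points of geodesic rays of the metric Cayley graph
-/

namespace Vale.Agent.P198V

open Set Filter Topology Vale.Agent.P198.H P198H
open scoped NNReal ENNReal

noncomputable section

section space

variable {X : Type} [MetricSpace X] {o : X}

theorem ray_dist (c : GRay o) (s t : ℝ≥0) : dist (c.1 s) (c.1 t) = |(s : ℝ) - t| :=
  (c.2.2.dist_eq s t).trans (NNReal.dist_eq s t)

theorem ray_o (c : GRay o) (t : ℝ≥0) : dist o (c.1 t) = t := by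
  have := ray_dist c 0 t
  rw [c.2.1] at this
  simpa using this

theorem gro_lip (x y x' y' : X) : gro o x y ≤ gro o x' y' + (dist x x' + dist y y') := by
  have h1 := dist_triangle_right o x x'
  have h2 := dist_triangle_right o y y'
  have h3 := dist_triangle4 x' x y y'
  rw [dist_comm x' x] at h3
  have h4 := dist_triangle o x' x
  have h5 := dist_triangle o y' y
  rw [dist_comm x' x] at h4
  rw [dist_comm y' y] at h5
  unfold gro
  linarith

/-- the Gromov product of two rays at time `t` -/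
def pr (c c' : GRay o) (t : ℝ≥0) : ℝ := gro o (c.1 t) (c'.1 t)

theorem pr_eq (c c' : GRay o) (t : ℝ≥0) : pr c c' t = t - dist (c.1 t) (c'.1 t) / 2 := by
  rw [pr, gro, ray_o, ray_o]; ring

theorem gro_same (c : GRay o) {s t : ℝ≥0} (h : s ≤ t) : gro o (c.1 s) (c.1 t) = s := by
  rw [gro, ray_o, ray_o, ray_dist, abs_of_nonpos (sub_nonpos.2 (by exact_mod_cast h))]; ring

theorem pr_mono (c c' : GRay o) {s t : ℝ≥0} (h : s ≤ t) : pr c c' s ≤ pr c c' t := by
  have h1 := dist_triangle4 (c.1 t) (c.1 s) (c'.1 s) (c'.1 t)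
  have h2 : (s : ℝ) ≤ t := h
  rw [ray_dist, ray_dist, abs_of_nonneg (sub_nonneg.2 h2), abs_of_nonpos (sub_nonpos.2 h2)] at h1
  rw [pr_eq, pr_eq]
  linarith

theorem le_groB (c c' : GRay o) (t : ℝ≥0) :
    ENNReal.ofReal (pr c c' t) ≤ groB (Quot.mk _ c : Bd o) (Quot.mk _ c') :=
  le_iSup₂_of_le c c' <| le_iSup₂_of_le rfl rfl <| le_liminf_of_le (by isBoundedDefault) <|
    (eventually_ge_atTop t).mono fun _ h => ENNReal.ofReal_le_ofReal (pr_mono c c' h)

theorem groB_le {ξ η : Bd o} {U : ℝ}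
    (h : ∀ c c' : GRay o, Quot.mk _ c = ξ → Quot.mk _ c' = η → ∀ t, pr c c' t ≤ U) :
    groB ξ η ≤ ENNReal.ofReal U :=
  iSup₂_le fun c c' => iSup₂_le fun e e' => liminf_le_of_frequently_le' <|
    Frequently.of_forall fun t => ENNReal.ofReal_le_ofReal (h c c' e e' t)

theorem groB_self (ξ : Bd o) : groB ξ ξ = ⊤ := by
  induction ξ using Quot.inductionOn with | _ c => ?_
  refine ENNReal.eq_top_of_forall_nnreal_le fun r => ?_
  have := le_groB c c r
  rwa [pr_eq, dist_self, zero_div, sub_zero, ENNReal.ofReal_coe_nnreal] at this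

theorem bdd_of_haus {c c' : GRay o} (h : Metric.hausdorffEDist (range c.1) (range c'.1) ≠ ⊤) :
    ∃ R : ℝ, ∀ t : ℝ≥0, t - R ≤ pr c c' t := by
  refine ⟨Metric.hausdorffDist (range c.1) (range c'.1) + 1, fun t => ?_⟩
  obtain ⟨_, ⟨s, rfl⟩, e⟩ := Metric.exists_dist_lt_of_hausdorffDist_lt (mem_range_self t)
    (lt_add_one _) h
  have h1 := abs_dist_sub_le (c.1 t) (c'.1 s) o
  rw [dist_comm _ o, dist_comm _ o, ray_o, ray_o] at h1
  have h2 := dist_triangle (c.1 t) (c'.1 s) (c'.1 t)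
  rw [ray_dist, abs_sub_comm] at h2
  rw [pr_eq]
  linarith

theorem haus_of_bdd {c c' : GRay o} {R : ℝ} (h : ∀ t : ℝ≥0, t - R ≤ pr c c' t) :
    Metric.hausdorffEDist (range c.1) (range c'.1) ≠ ⊤ := by
  have k : ∀ t, edist (c.1 t) (c'.1 t) ≤ ENNReal.ofReal (2 * R) := fun t => by
    have := h t
    rw [pr_eq] at this
    rw [edist_dist]
    exact ENNReal.ofReal_le_ofReal (by linarith)
  refine ne_top_of_le_ne_top (ENNReal.ofReal_ne_top (r := 2 * R))
    (Metric.hausdorffEDist_le_of_mem_edist ?_ ?_)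
  · rintro _ ⟨t, rfl⟩
    exact ⟨_, mem_range_self t, k t⟩
  · rintro _ ⟨t, rfl⟩
    exact ⟨_, mem_range_self t, (edist_comm _ _).trans_le (k t)⟩

variable (hf : ∀ ξ η : Bd o, groB ξ η = ⊤ ↔ ξ = η) {d : Bd o → Bd o → ℝ} (hd : IsVisual d)
include hf hd

theorem vis_sub (ξ : Bd o) (ε : ℝ) (hε : 0 < ε) :
    ∃ r : ℝ≥0, True ∧ {η | (r : ℝ≥0∞) ≤ groB ξ η} ⊆ {η | d ξ η < ε} := by
  obtain ⟨a, C, ha, hC, h⟩ := hd.cmp
  have h0 : 0 < a := by linarith
  obtain ⟨n, hn⟩ := exists_pow_lt_of_lt_one (div_pos hε (by linarith : 0 < C))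
    (inv_lt_one_of_one_lt₀ ha)
  refine ⟨n, trivial, fun η e => ?_⟩
  rw [mem_ofPred_eq] at e ⊢
  by_cases k : ξ = η
  · rwa [← k, hd.self]
  have h1 : (n : ℝ) ≤ (groB ξ η).toReal := by
    simpa using ENNReal.toReal_mono (mt (hf ξ η).1 k) e
  have h2 := Real.rpow_le_rpow_of_exponent_le ha.le (neg_le_neg h1)
  rw [Real.rpow_neg h0.le n, Real.rpow_natCast, ← inv_pow] at h2
  rw [lt_div_iff₀' (by linarith)] at hn
  exact ((h ξ η k).2.trans (mul_le_mul_of_nonneg_left h2 (by linarith))).trans_lt hn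

theorem sub_vis (ξ : Bd o) (r : ℝ≥0) :
    ∃ ε : ℝ, 0 < ε ∧ {η | d ξ η < ε} ⊆ {η | (r : ℝ≥0∞) ≤ groB ξ η} := by
  obtain ⟨a, C, ha, hC, h⟩ := hd.cmp
  have h0 : 0 < a := by linarith
  have h1 : 0 < C := by linarith
  refine ⟨a ^ (-(r : ℝ)) / C, by positivity, fun η e => ?_⟩
  rw [mem_ofPred_eq] at e ⊢
  by_cases k : ξ = η
  · rw [(hf ξ η).2 k]; exact le_top
  have h2 := ((h ξ η k).1.trans_lt e)
  rw [div_lt_div_iff_of_pos_right h1, Real.rpow_lt_rpow_left_iff ha, neg_lt_neg_iff] at h2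
  rw [← ENNReal.ofReal_coe_nnreal]
  exact ENNReal.ofReal_le_of_le_toReal h2.le

end space

variable {G : Type} [Group G] {S : Finset G} {hS : Subgroup.closure (S : Set G) = ⊤}
  (H : HypLen G) (hH : H.len = wlen S)

theorem θ_anti {s t : ℝ} (h : s ≤ t) : H.θ ^ t ≤ H.θ ^ s :=
  Real.rpow_le_rpow_of_exponent_ge H.θ_pos H.θ_le_one h

theorem θ_lim (A B : ℝ) : Tendsto (fun n : ℕ => A * H.θ ^ ((n : ℝ) - B)) atTop (𝓝 0) := by
  have := (tendsto_θ_pow H).const_mul (A * H.θ ^ (-B))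
  rw [mul_zero] at this
  refine this.congr fun n => ?_
  rw [sub_eq_neg_add, Real.rpow_add H.θ_pos, Real.rpow_natCast, mul_assoc]

/-- `z` is the end point of the ray `c` -/
def Ends (c : GRay (vtx hS 1)) (z : H.Cp) : Prop :=
  ∀ (t : ℝ≥0) g, dist (c.1 t) (vtx hS g) ≤ 1 → dist (H.ι g) z ≤ H.θ ^ ((t : ℝ) - 2)

include hH

theorem gro_vtx (g h : G) : gro (vtx hS 1) (vtx hS g) (vtx hS h) = H.g2 g h := by
  rw [gro, dist_vtx, dist_vtx, dist_vtx, H.g2_def, hH, wdist_one_left, wdist_one_left, wdist]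

theorem ι_le {x y : Cay hS} {g h : G} (e : dist x (vtx hS g) ≤ 1) (e' : dist y (vtx hS h) ≤ 1) :
    dist (H.ι g) (H.ι h) ≤ H.θ ^ (gro (vtx hS 1) x y - 2) := by
  refine (dist_ι_le_rpow H g h).trans (θ_anti H ?_)
  have := gro_lip (o := vtx hS 1) x y (vtx hS g) (vtx hS h)
  rw [gro_vtx H hH] at this
  linarith

theorem exists_end (c : GRay (vtx hS 1)) : ∃ z : H.Bd, Ends H c z.1 := by
  choose g hg using fun n : ℕ => near (c.1 n)
  have k : ∀ (t : ℝ≥0) a (n : ℕ), dist (c.1 t) (vtx hS a) ≤ 1 → t ≤ n →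
      dist (H.ι a) (H.ι (g n)) ≤ H.θ ^ ((t : ℝ) - 2) := fun t a n e h => by
    have := ι_le H hH e (hg n)
    rwa [gro_same c h] at this
  have hc : CauchySeq fun n => H.ι (g n) := by
    refine cauchySeq_of_le_tendsto_0' (fun n : ℕ => 1 * H.θ ^ ((n : ℝ) - 2)) (fun n m h => ?_)
      (θ_lim H 1 2)
    rw [one_mul]
    exact k n _ m (hg n) (by exact_mod_cast h)
  obtain ⟨z, hz⟩ := cauchySeq_tendsto_of_complete hc
  have he : Ends H c z := fun t a e => by
    refine le_of_tendsto (tendsto_const_nhds.dist hz) ?_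
    filter_upwards [eventually_ge_atTop ⌈t⌉₊] with n hn
    exact k t a n e (Nat.ceil_le.1 hn)
  refine ⟨⟨z, ?_⟩, he⟩
  rintro ⟨a, rfl⟩
  refine absurd (H.s_pos a) (not_lt.2 (ge_of_tendsto (θ_lim H 2 2) ?_))
  filter_upwards [eventually_gt_atTop (wlen S a + 1)] with n hn
  have h1 : g n ≠ a := by
    rintro rfl
    have h2 := dist_triangle_right (vtx hS 1) (c.1 n) (vtx hS (g n))
    rw [ray_o, dist_vtx, wdist_one_left] at h2
    have h3 : (wlen S (g n) : ℝ) + 1 < n := by exact_mod_cast hn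
    have h4 := hg n
    push_cast at h2
    linarith
  have h2 := H.s_le_dist h1
  rw [← H.dist_ι] at h2
  exact h2.trans (mul_le_mul_of_nonneg_left (he n _ (hg n)) two_pos.le)

variable {c c' : GRay (vtx hS 1)} {z z' : H.Cp}

theorem ends_le (h : Ends H c z) (h' : Ends H c' z') (t : ℝ≥0) :
    dist z z' ≤ 3 * H.θ ^ (pr c c' t - 2) := by
  obtain ⟨g, e⟩ := near (c.1 t)
  obtain ⟨g', e'⟩ := near (c'.1 t)
  have h1 := ι_le H hH e e'
  have h2 : H.θ ^ ((t : ℝ) - 2) ≤ H.θ ^ (pr c c' t - 2) := θ_anti H (by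
    rw [pr_eq]; linarith [dist_nonneg (x := c.1 t) (y := c'.1 t)])
  have h3 := dist_triangle4 z (H.ι g) (H.ι g') z'
  rw [dist_comm z (H.ι g)] at h3
  have h4 := h t g e
  have h5 := h' t g' e'
  unfold pr at h2 ⊢
  linarith

theorem le_ends (h : Ends H c z) (h' : Ends H c' z') (t : ℝ≥0) :
    H.θ ^ (pr c c' t + 2) ≤ 2 * dist z z' + 4 * H.θ ^ ((t : ℝ) - 2) := by
  obtain ⟨g, e⟩ := near (c.1 t)
  obtain ⟨g', e'⟩ := near (c'.1 t)
  have h0 := Real.rpow_pos_of_pos H.θ_pos ((t : ℝ) - 2)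
  have h6 := dist_nonneg (x := z) (y := z')
  by_cases k : g = g'
  · subst k
    have h1 := dist_triangle_right (c.1 t) (c'.1 t) (vtx hS g)
    have h2 : H.θ ^ (pr c c' t + 2) ≤ H.θ ^ ((t : ℝ) - 2) := θ_anti H (by rw [pr_eq]; linarith)
    linarith
  have h1 := gro_lip (o := vtx hS 1) (vtx hS g) (vtx hS g') (c.1 t) (c'.1 t)
  rw [gro_vtx H hH, dist_comm (vtx hS g), dist_comm (vtx hS g')] at h1
  have h2 : H.θ ^ (pr c c' t + 2) ≤ H.θ ^ H.g2 g g' := θ_anti H (by unfold pr; linarith)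
  have h3 := dist_triangle4 (H.ι g) z z' (H.ι g')
  rw [dist_comm z'] at h3
  have h4 := h t g e
  have h5 := h' t g' e'
  have h7 := rpow_le_dist_ι H k
  linarith

theorem ends_eq (h : Ends H c z) (h' : Ends H c' z') :
    z = z' ↔ Metric.hausdorffEDist (range c.1) (range c'.1) ≠ ⊤ := by
  constructor
  · rintro rfl
    refine haus_of_bdd (R := 4 + 4 * H.D) fun t => ?_
    have h1 := le_ends H hH h h' t
    have h2 : H.θ ^ ((t : ℝ) - 2 - 4 * H.D) = 4 * H.θ ^ ((t : ℝ) - 2) := by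
      rw [show (t : ℝ) - 2 - 4 * H.D = -H.D + -H.D + (-H.D + -H.D) + (t - 2) by ring]
      simp only [Real.rpow_add H.θ_pos, H.θ_neg_D]
      ring
    rw [dist_self, mul_zero, zero_add, ← h2,
      Real.rpow_le_rpow_left_iff_of_base_lt_one H.θ_pos H.θ_lt_one] at h1
    linarith
  · intro k
    obtain ⟨R, hR⟩ := bdd_of_haus k
    refine dist_le_zero.1 (ge_of_tendsto' (θ_lim H 3 (R + 2)) fun n => ?_)
    refine (ends_le H hH h h' n).trans (mul_le_mul_of_nonneg_left (θ_anti H ?_) (by norm_num))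
    have := hR n
    push_cast at this
    linarith

end

end Vale.Agent.P198V
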