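import Vale.Agent.P198V50.Ends
import Vale.Agent.P198.H.OfThin
import Vale.Agent.P198.CH.Close

/-!
# P198: the boundary of the metric Cayley graph is the boundary of the completion
-/

namespace Vale.Agent.P198V

open Set Filter Topology Vale.Agent.P198.H P198H
open scoped NNReal ENNReal

noncomputable section

variable {G : Type} [Group G] {S : Finset G} (hS : Subgroup.closure (S : Set G) = ⊤)

theorem ray_step (r : Ray S) (i : ℕ) : wdist S (r.1 i) (r.1 (i + 1)) ≤ 1 := by
  rw [r.2.2 i (i + 1) (Nat.le_succ i)]; omega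

theorem ext_iso (r : Ray S) : Isometry fun t : ℝ≥0 => ext hS r.1 t := by
  refine Isometry.of_dist_eq fun s t => ?_
  obtain ⟨n, hn⟩ := exists_nat_ge ((s : ℝ) + t)
  have h := seg_of (ext_lip (hS := hS) (ray_step r)) (Nat.cast_nonneg n) (by
    have := ext_nat (hS := hS) (ray_step r) 0
    rw [Nat.cast_zero] at this
    rw [this, ext_nat (ray_step r), dist_vtx, r.2.2 0 n (Nat.zero_le n), Nat.sub_zero])
  rw [NNReal.dist_eq]
  exact h.iso s ⟨s.2, by linarith [t.coe_nonneg]⟩ t ⟨t.2, by linarith [s.coe_nonneg]⟩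

/-- the geodesic ray through the vertices of a ray -/
def extRay (r : Ray S) : GRay (vtx hS 1) :=
  ⟨⟨fun t => ext hS r.1 t, (ext_iso hS r).continuous⟩, by
    have := ext_nat (hS := hS) (ray_step r) 0
    rw [Nat.cast_zero, r.2.1] at this
    exact this, ext_iso hS r⟩

theorem continuous_extRay : Continuous (extRay hS) := by
  refine Continuous.subtype_mk (ContinuousMap.continuous_of_continuous_uncurry _ ?_) _
  refine continuous_iff_continuousAt.2 fun p => ?_
  refine ((ext_iso hS p.1).continuous.comp continuous_snd).continuousAt.congr ?_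
  have h1 : ∀ᶠ r : Ray S in 𝓝 p.1, ∀ i ∈ Finset.range (⌊(p.2 : ℝ) + 1⌋₊ + 2), r.1 i = p.1.1 i :=
    (eventually_all_finset _).2 fun i _ => eventually_eq_ray p.1 i
  have h2 : ∀ᶠ t : ℝ≥0 in 𝓝 p.2, (t : ℝ) < p.2 + 1 :=
    NNReal.continuous_coe.continuousAt.eventually_lt continuousAt_const (lt_add_one _)
  filter_upwards [continuousAt_fst.eventually h1, continuousAt_snd.eventually h2] with q k1 k2
  have h3 := Nat.floor_mono k2.le
  show ext hS p.1.1 q.2 = ext hS q.1.1 q.2
  unfold ext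
  rw [k1 _ (Finset.mem_range.2 (by omega)), k1 _ (Finset.mem_range.2 (by omega))]

variable {hS} (H : HypLen G) (hH : H.len = wlen S)

/-- the end point of a ray -/
def rend (c : GRay (vtx hS 1)) : H.Bd := (exists_end H hH c).choose

theorem rend_spec (c : GRay (vtx hS 1)) : Ends H c (rend H hH c).1 :=
  (exists_end H hH c).choose_spec

theorem rend_eq (c c' : GRay (vtx hS 1)) : rend H hH c = rend H hH c' ↔
    Metric.hausdorffEDist (range c.1) (range c'.1) ≠ ⊤ :=
  Subtype.ext_iff.trans (ends_eq H hH (rend_spec H hH c) (rend_spec H hH c'))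

theorem rend_ext (r : Ray S) : rend H hH (extRay hS r) = rayEnd H hH r := by
  refine Subtype.ext (tendsto_nhds_unique ?_ (tendsto_rayEnd H hH r))
  refine tendsto_iff_dist_tendsto_zero.2
    (squeeze_zero (fun _ => dist_nonneg) (fun n => ?_) (θ_lim H 1 2))
  rw [one_mul]
  refine rend_spec H hH _ n _ ?_
  show dist (ext hS r.1 (n : ℝ)) _ ≤ 1
  rw [ext_nat (ray_step r), dist_self]
  exact zero_le_one

theorem continuous_rend : Continuous (rend (hS := hS) H hH) := by
  refine continuous_iff_continuousAt.2 fun c => Metric.tendsto_nhds.2 fun ε hε => ?_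
  obtain ⟨n, hn⟩ := ((θ_lim H 3 3).eventually_lt_const hε).exists
  have h1 : Continuous fun c' : GRay (vtx hS 1) => dist (c'.1 n) (c.1 n) :=
    ((continuous_eval_const _).comp continuous_subtype_val).dist continuous_const
  filter_upwards [h1.continuousAt.eventually_lt (continuousAt_const (y := (2 : ℝ)))
    (by simp : dist (c.1 n) (c.1 n) < 2)] with c' h
  refine lt_of_le_of_lt ((ends_le H hH (rend_spec H hH c') (rend_spec H hH c) n).trans
    (mul_le_mul_of_nonneg_left (θ_anti H ?_) (by norm_num))) hn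
  rw [pr_eq]
  push_cast
  linarith

/-- the end point of a class of rays -/
def Phi : Bd (vtx hS 1) → H.Bd := Quot.lift (rend H hH) fun c c' => (rend_eq H hH c c').2

theorem Phi_inj : Function.Injective (Phi (hS := hS) H hH) := by
  intro a b
  induction a using Quot.inductionOn with | _ c => ?_
  induction b using Quot.inductionOn with | _ c' => ?_
  exact fun h => Quot.sound ((rend_eq H hH c c').1 h)

theorem exists_homeo : ∃ e : Bd (vtx hS 1) ≃ₜ H.Bd, ⇑e = Phi H hH := by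
  have hs : ∀ z, ∃ r : Ray S, Phi H hH (Quot.mk _ (extRay hS r)) = z := fun z =>
    (exists_rayEnd H hH hS z).imp fun r hr => (rend_ext H hH r).trans hr
  have := compactSpace_ray hS
  have : CompactSpace (Bd (vtx hS 1)) :=
    Function.Surjective.compactSpace (f := fun r : Ray S => (Quot.mk _ (extRay hS r) : Bd _))
      (continuous_quot_mk.comp (continuous_extRay hS))
      fun ξ => (hs (Phi H hH ξ)).imp fun _ h => Phi_inj H hH h
  have hc : Continuous (Phi (hS := hS) H hH) := continuous_quot_lift _ (continuous_rend H hH)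
  exact ⟨hc.homeoOfEquivCompactToT2 (f := Equiv.ofBijective _
    ⟨Phi_inj H hH, fun z => (hs z).elim fun _ h => ⟨_, h⟩⟩), rfl⟩

theorem groB_bd {ξ η : Bd (vtx hS 1)} (h : ξ ≠ η) : ∃ U : ℝ, 0 ≤ U ∧
    groB ξ η ≤ ENNReal.ofReal U ∧ 3 * H.θ ^ (U - 2) = dist (Phi H hH ξ) (Phi H hH η) := by
  have h0 : 0 < dist (Phi H hH ξ) (Phi H hH η) / 3 :=
    div_pos (dist_pos.2 ((Phi_inj H hH).ne h)) (by norm_num)
  have h1 := Real.rpow_logb H.θ_pos H.θ_lt_one.ne h0
  have k : ∀ c c' : GRay (vtx hS 1), Quot.mk _ c = ξ → Quot.mk _ c' = η → ∀ t,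
      pr c c' t ≤ Real.logb H.θ (dist (Phi H hH ξ) (Phi H hH η) / 3) + 2 := by
    intro c c' e e' t
    have h2 : dist (Phi H hH ξ) (Phi H hH η) ≤ 3 * H.θ ^ (pr c c' t - 2) := by
      rw [← e, ← e']
      exact ends_le H hH (rend_spec H hH c) (rend_spec H hH c') t
    rw [← div_le_iff₀' (by norm_num), ← h1,
      Real.rpow_le_rpow_left_iff_of_base_lt_one H.θ_pos H.θ_lt_one] at h2
    linarith
  refine ⟨_, ?_, groB_le k, by rw [add_sub_cancel_right, h1]; ring⟩
  obtain ⟨c, e⟩ := Quot.exists_rep ξ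
  obtain ⟨c', e'⟩ := Quot.exists_rep η
  have := k c c' e e' 0
  rwa [pr_eq, c.2.1, c'.2.1, dist_self, zero_div, sub_zero] at this

include hH in
theorem groB_top (ξ η : Bd (vtx hS 1)) : groB ξ η = ⊤ ↔ ξ = η := by
  refine ⟨fun h => by_contra fun k => ?_, fun h => h ▸ groB_self ξ⟩
  obtain ⟨U, -, h1, -⟩ := groB_bd H hH k
  exact ENNReal.ofReal_ne_top (top_le_iff.1 (h ▸ h1))

theorem visual : IsVisual fun ξ η : Bd (vtx hS 1) => dist (Phi H hH ξ) (Phi H hH η) where
  self _ := dist_self _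
  comm _ _ := dist_comm _ _
  triangle _ _ _ := dist_triangle _ _ _
  cmp := by
    have h0 := H.θ_pos
    have h1 : 1 ≤ H.θ ^ (-2 : ℝ) :=
      Real.one_le_rpow_of_pos_of_le_one_of_nonpos h0 H.θ_le_one (by norm_num)
    refine ⟨H.θ⁻¹, 3 * H.θ ^ (-2 : ℝ), one_lt_inv_iff₀.2 ⟨h0, H.θ_lt_one⟩, by linarith,
      fun ξ η h => ?_⟩
    rw [Real.inv_rpow h0.le, ← Real.rpow_neg h0.le, neg_neg]
    obtain ⟨U, hU, h2, h3⟩ := groB_bd H hH h
    constructor
    · have h4 : H.θ ^ ((groB ξ η).toReal + 2) ≤ 2 * dist (Phi H hH ξ) (Phi H hH η) := by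
        obtain ⟨c, rfl⟩ := Quot.exists_rep ξ
        obtain ⟨c', rfl⟩ := Quot.exists_rep η
        have h5 := (θ_lim H 4 2).const_add (2 * dist (rend H hH c) (rend H hH c'))
        rw [add_zero] at h5
        refine ge_of_tendsto' h5 fun n => le_trans (θ_anti H ?_)
          (le_ends H hH (rend_spec H hH c) (rend_spec H hH c') n)
        have := (ENNReal.ofReal_le_iff_le_toReal (mt (groB_top H hH _ _).1 h)).1 (le_groB c c' n)
        linarith
      have h5 : H.θ ^ (groB ξ η).toReal = H.θ ^ ((groB ξ η).toReal + 2) * H.θ ^ (-2 : ℝ) := by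
        rw [← Real.rpow_add h0]; congr 1; ring
      rw [div_le_iff₀ (by linarith), h5]
      have h6 := dist_nonneg (x := Phi H hH ξ) (y := Phi H hH η)
      nlinarith
    · rw [← h3, mul_assoc, ← Real.rpow_add h0]
      refine mul_le_mul_of_nonneg_left (θ_anti H ?_) (by norm_num)
      have := ENNReal.toReal_le_of_le_ofReal hU h2
      linarith

include hH in
theorem basis_groB (ξ : Bd (vtx hS 1)) :
    (𝓝 ξ).HasBasis (fun _ : ℝ≥0 => True) fun r => {η | (r : ℝ≥0∞) ≤ groB ξ η} := by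
  obtain ⟨e, he⟩ := exists_homeo (hS := hS) H hH
  have h : (𝓝 ξ).HasBasis (fun ε : ℝ => 0 < ε)
      fun ε => {η | dist (Phi H hH ξ) (Phi H hH η) < ε} := by
    rw [e.isInducing.nhds_eq_comap, he]
    simpa only [Metric.ball, preimage_ofPred_eq, dist_comm] using
      (Metric.nhds_basis_ball (x := Phi H hH ξ)).comap (Phi H hH)
  exact h.to_hasBasis (vis_sub (groB_top H hH) (visual H hH) ξ)
    fun r _ => sub_vis (groB_top H hH) (visual H hH) ξ r

theorem final (G : Type) [Group G] (S : Finset G) (hS : Subgroup.closure (S : Set G) = ⊤)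
    (δ : ℝ) (hδ : Slim (Cay hS) δ) :
    (∀ g h : G, dist (vtx hS g) (vtx hS h) = wdist S g h) ∧
    (∀ x y : Cay hS, ∃ c, IsSeg c (dist x y) x y) ∧
    (∀ ξ η : Bd (vtx hS 1), groB ξ η = ⊤ ↔ ξ = η) ∧
    (∀ ξ : Bd (vtx hS 1),
      (𝓝 ξ).HasBasis (fun _ : ℝ≥0 => True) fun r => {η | (r : ℝ≥0∞) ≤ groB ξ η}) ∧
    (∃ d : Bd (vtx hS 1) → Bd (vtx hS 1) → ℝ, IsVisual d) ∧
    (∀ d : Bd (vtx hS 1) → Bd (vtx hS 1) → ℝ, IsVisual d → ∀ ξ,
      (𝓝 ξ).HasBasis (fun ε : ℝ => 0 < ε) fun ε => {η | d ξ η < ε}) ∧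
    (Nonempty (Bd (vtx hS 1) ≃ₜ Metric.sphere (0 : EuclideanSpace ℝ (Fin 3)) 1) →
      ∃ ρ : G →* (H3 ≃ᵢ H3), Finite ρ.ker ∧
        (∀ K : Set H3, IsCompact K → {g : G | ((ρ g) '' K ∩ K).Nonempty}.Finite) ∧
        ∃ K : Set H3, IsCompact K ∧ ⋃ g : G, (ρ g) '' K = Set.univ) := by
  have t := thin_of_slim hδ
  have hH : (hypLen hS t).len = wlen S := rfl
  refine ⟨dist_vtx, geodesic, groB_top _ hH, basis_groB _ hH, ⟨_, visual _ hH⟩,
    fun d hd ξ => (basis_groB _ hH ξ).to_hasBasis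
      (fun r _ => sub_vis (groB_top _ hH) hd ξ r) (vis_sub (groB_top _ hH) hd ξ), fun ⟨f⟩ => ?_⟩
  obtain ⟨e, -⟩ := exists_homeo (hS := hS) _ hH
  exact P198C137.stage2 G S hS _ t ⟨((bdryHomeo hS _ hH).trans e.symm).trans f⟩

end

end Vale.Agent.P198V
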